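import Vale.Agent.P075.R.Defs
import Mathlib

/-!
# P075, Question 1, block LEV: `StStep → StLev` (sum over the levels)
-/

set_option linter.unusedSectionVars false
set_option linter.unusedVariables false

namespace Vale.Agent.P075.R.H908

open MeasureTheory Matrix Filter Topology Vale.Agent.P075 Vale.Agent.P075.R

variable {n : Type*} [Fintype n] [DecidableEq n]

/-! ### continuity of the resolvent -/

theorem cont_res {α : Type*} [TopologicalSpace α] {X : α → Matrix n n ℝ} (hX : Continuous X)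
    (hp : ∀ a, (X a).PosSemidef) : Continuous (fun a => res (X a)) := by
  have h1 : Continuous (fun a => (1 + X a).det) := by fun_prop
  have h2 : Continuous (fun a => (1 + X a).adjugate) := by fun_prop
  have h3 : ∀ a, (1 + X a).det ≠ 0 := fun a => (det_pos_one_add (hp a)).ne'
  have h4 : (fun a => res (X a)) = fun a => ((1 + X a).det)⁻¹ • (1 + X a).adjugate := by
    funext a
    rw [res, inv_def, Ring.inverse_eq_inv']
  rw [h4]
  exact (h1.inv₀ h3).smul h2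

theorem cont_phi {α : Type*} [TopologicalSpace α] {X : α → Matrix n n ℝ} (hX : Continuous X)
    (hp : ∀ a, (X a).PosSemidef) : Continuous (fun a => phi (X a)) := by
  unfold phi
  exact continuous_const.sub (cont_res hX hp)

theorem cont_gramC {α : Type*} [TopologicalSpace α] {A : α → Matrix n n ℝ} (hA : Continuous A)
    (μ : ℝ) : Continuous (fun a => gramC μ (A a)) := by
  unfold gramC
  fun_prop

theorem cont_gramR {α : Type*} [TopologicalSpace α] {A : α → Matrix n n ℝ} (hA : Continuous A)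
    (μ : ℝ) : Continuous (fun a => gramR μ (A a)) := by
  unfold gramR
  fun_prop

theorem cont_reg {α : Type*} [TopologicalSpace α] {A : α → Matrix n n ℝ} (hA : Continuous A)
    {μ : ℝ} (hμ : 0 ≤ μ) : Continuous (fun a => reg μ (A a)) := by
  unfold reg
  exact hA.matrix_mul (cont_res (cont_gramC hA μ) (fun a => gramC_psd hμ _))

theorem cont_T3 {α : Type*} [TopologicalSpace α] {A B C : α → Matrix n n ℝ} (hA : Continuous A)
    (hB : Continuous B) (hC : Continuous C) (r : Matrix n n ℝ) :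
    Continuous (fun a => T3 r (A a) (B a) (C a)) := by
  unfold T3
  fun_prop

theorem cont_MnG {α : Type*} [TopologicalSpace α] {A B : α → Matrix n n ℝ} (hA : Continuous A)
    (hB : Continuous B) (r : Matrix n n ℝ) {μ : ℝ} (hμ : 0 ≤ μ) :
    Continuous (fun a => MnG r μ (A a) (B a)) := by
  unfold MnG
  have h1 := cont_phi (cont_gramC hA μ) (fun a => gramC_psd hμ _)
  have h2 := cont_phi (cont_gramR hB μ) (fun a => gramR_psd hμ _)
  exact (h1.matrix_mul ((continuous_const.matrix_mul h2).matrix_mul continuous_const)).matrix_trace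

/-! ### size of the regularised matrices -/

/-- sum of the absolute values of the entries -/
def fr (F : Matrix n n ℝ) : ℝ := ∑ i, ∑ j, |F i j|

theorem fr_nonneg (F : Matrix n n ℝ) : 0 ≤ fr F :=
  Finset.sum_nonneg fun _ _ => Finset.sum_nonneg fun _ _ => abs_nonneg _

theorem le_fr (F : Matrix n n ℝ) (i j : n) : |F i j| ≤ fr F := by
  calc |F i j| ≤ ∑ j, |F i j| :=
        Finset.single_le_sum (f := fun j => |F i j|) (fun _ _ => abs_nonneg _) (Finset.mem_univ j)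
    _ ≤ fr F :=
        Finset.single_le_sum (f := fun i => ∑ j, |F i j|)
          (fun _ _ => Finset.sum_nonneg fun _ _ => abs_nonneg _) (Finset.mem_univ i)

theorem trace_le_fr_sq (F : Matrix n n ℝ) : (Fᵀ * F).trace ≤ fr F ^ 2 := by
  have h : (Fᵀ * F).trace = ∑ b, ∑ a, (F a b) ^ 2 := by
    simp [Matrix.trace, Matrix.mul_apply, sq]
  have h1 : ∑ b, ∑ a, (F a b) ^ 2 ≤ ∑ b, ∑ a, fr F * |F a b| := by
    refine Finset.sum_le_sum fun b _ => Finset.sum_le_sum fun a _ => ?_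
    rw [← sq_abs, sq]
    exact mul_le_mul_of_nonneg_right (le_fr F a b) (abs_nonneg _)
  have h2 : ∑ b, ∑ a, fr F * |F a b| = fr F ^ 2 := by
    simp only [← Finset.mul_sum]
    rw [Finset.sum_comm, sq]
    rfl
  rw [h]
  exact h1.trans h2.le

theorem reg_le_fr {μ : ℝ} (hμ : 0 ≤ μ) (F : Matrix n n ℝ) (i j : n) : |reg μ F i j| ≤ fr F := by
  have hX := gramC_psd hμ F
  have h1 := entry_sq_le_trace (reg μ F) i j
  have hs := res_symm hX
  set R := res (gramC μ F) with hR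
  have h2 : ((reg μ F)ᵀ * reg μ F).trace = ((Fᵀ * F) * (R * R)).trace := by
    rw [reg, transpose_mul, ← hR, hs]
    rw [show R * Fᵀ * (F * R) = R * (Fᵀ * F * R) by simp only [Matrix.mul_assoc], trace_mul_comm]
    simp only [Matrix.mul_assoc]
  have h3 : (1 - R * R).PosSemidef := by
    have : 1 - R * R = (1 - R) + (R - R * R) := by noncomm_ring
    rw [this]
    exact (one_sub_res_psd hX).add (res_sub_sq_psd hX)
  have h4 : ((Fᵀ * F) * (R * R)).trace ≤ ((Fᵀ * F) * 1).trace :=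
    trace_mul_le_right (psd_transpose_mul F) h3
  rw [Matrix.mul_one] at h4
  have h5 : (reg μ F i j) ^ 2 ≤ fr F ^ 2 := by
    rw [h2] at h1
    exact h1.trans (h4.trans (trace_le_fr_sq F))
  exact abs_le_of_sq_le_sq h5 (fr_nonneg F)

theorem cont_fr {α : Type*} [TopologicalSpace α] {A : α → Matrix n n ℝ} (hA : Continuous A) :
    Continuous (fun a => fr (A a)) := by
  unfold fr
  refine continuous_finsetSum _ fun i _ => continuous_finsetSum _ fun j _ => ?_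
  exact (hA.matrix_elem i j).abs

/-- trivial bound for the trilinear form -/
theorem T3_abs_le (k : ℕ) {F₀ F₁ F₂ : Matrix (Ix k ⊕ Ix k) (Ix k ⊕ Ix k) ℝ} {a b c : ℝ}
    (ha : 0 ≤ a) (hb : 0 ≤ b) (hc : 0 ≤ c)
    (h0 : ∀ i j, |F₀ i j| ≤ a) (h1 : ∀ i j, |F₁ i j| ≤ b) (h2 : ∀ i j, |F₂ i j| ≤ c) :
    |T3 (rad (Ix k)) F₀ F₁ F₂| ≤ (Fintype.card (Ix k ⊕ Ix k) : ℝ) ^ 3 * (a * b * c) := by
  rw [rad_diag, T3_eq_sum]
  have hsg : ∀ i : ℕ, |sg (k + 1) i| ≤ 1 := by
    intro i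
    unfold sg
    split_ifs <;> simp
  have hterm : ∀ i j l : Ix k ⊕ Ix k,
      |F₀ i j * F₁ j l * F₂ l i * (sg (k + 1) (val (k + 1) i) * sg (k + 1) (val (k + 1) j)
        * sg (k + 1) (val (k + 1) l))| ≤ a * b * c := by
    intro i j l
    rw [abs_mul, abs_mul, abs_mul, abs_mul, abs_mul]
    have e1 : |sg (k + 1) (val (k + 1) i)| * |sg (k + 1) (val (k + 1) j)|
        * |sg (k + 1) (val (k + 1) l)| ≤ 1 := by
      refine mul_le_one₀ (mul_le_one₀ (hsg _) (abs_nonneg _) (hsg _)) (abs_nonneg _) (hsg _)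
    have e2 : |F₀ i j| * |F₁ j l| * |F₂ l i| ≤ a * b * c := by
      refine mul_le_mul (mul_le_mul (h0 _ _) (h1 _ _) (abs_nonneg _) ha) (h2 _ _) (abs_nonneg _)
        (by positivity)
    calc _ ≤ (a * b * c) * 1 := mul_le_mul e2 e1 (by positivity) (by positivity)
      _ = _ := mul_one _
  calc _ ≤ ∑ i : Ix k ⊕ Ix k, ∑ j : Ix k ⊕ Ix k, ∑ l : Ix k ⊕ Ix k, a * b * c := by
        refine (Finset.abs_sum_le_sum_abs _ _).trans (Finset.sum_le_sum fun i _ => ?_)
        refine (Finset.abs_sum_le_sum_abs _ _).trans (Finset.sum_le_sum fun j _ => ?_)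
        refine (Finset.abs_sum_le_sum_abs _ _).trans (Finset.sum_le_sum fun l _ => hterm i j l)
    _ = _ := by
        simp only [Finset.sum_const, Finset.card_univ, nsmul_eq_mul]
        ring

/-! ### pointwise inequality -/

variable {k : ℕ}

/-- the sum of the three main terms -/
noncomputable def M3 (r : Matrix n n ℝ) (μ : ℝ) (F₀ F₁ F₂ : Matrix n n ℝ) : ℝ :=
  MnG r μ F₀ F₁ + MnG r μ F₁ F₂ + MnG r μ F₂ F₀

theorem T3_pt (k : ℕ) {s : ℝ} (hs : 0 < s) (N : ℕ)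
    (F₀ F₁ F₂ : Matrix (Ix k ⊕ Ix k) (Ix k ⊕ Ix k) ℝ) :
    ((8 : ℝ) ^ (k + 1))⁻¹ * |T3 (rad (Ix k)) F₀ F₁ F₂|
      ≤ ((8 : ℝ) ^ (k + 1))⁻¹ * err (k + 1) (rad (Ix k)) s N F₀ F₁ F₂
        + ∑ j ∈ Finset.range N, (3 / 2) * (s * 2 ^ (j + 1)) ^ 3 *
          M3 (rad (Ix k)) (muk (k + 1) (s * 2 ^ (j + 1))) F₀ F₁ F₂ := by
  have h8 : (0 : ℝ) < ((8 : ℝ) ^ (k + 1))⁻¹ := by positivity
  have hj : ∀ j ∈ Finset.range N, ((8 : ℝ) ^ (k + 1))⁻¹ *
      |TR (k + 1) (rad (Ix k)) (s * 2 ^ (j + 1)) F₀ F₁ F₂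
        - TR (k + 1) (rad (Ix k)) (s * 2 ^ j) F₀ F₁ F₂|
      ≤ (3 / 2) * (s * 2 ^ (j + 1)) ^ 3 *
          M3 (rad (Ix k)) (muk (k + 1) (s * 2 ^ (j + 1))) F₀ F₁ F₂ := by
    intro j _
    set τ := s * 2 ^ (j + 1) with hτ
    have hτpos : 0 < τ := by positivity
    have hτ2 : τ = 2 * (s * 2 ^ j) := by rw [hτ, pow_succ]; ring
    have hν : 0 < (2 : ℝ) ^ (k + 1) * τ := by positivity
    have h1 := T3_level (rad_symm (m := Ix k)) rad_sq hν (μ := muk (k + 1) τ) rfl F₀ F₁ F₂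
    have hm : muk (k + 1) (s * 2 ^ j) = 4 * muk (k + 1) τ := by rw [hτ2]; exact muk_half _ _
    rw [TR, TR, hm]
    refine (mul_le_mul_of_nonneg_left h1 h8.le).trans (le_of_eq ?_)
    have : (8 : ℝ) ^ (k + 1) = ((2 : ℝ) ^ (k + 1)) ^ 3 := by
      rw [← pow_mul, mul_comm (k + 1) 3, pow_mul]; norm_num
    rw [this, M3]
    field_simp
  have h2 : TR (k + 1) (rad (Ix k)) (s * 2 ^ N) F₀ F₁ F₂ - TR (k + 1) (rad (Ix k)) s F₀ F₁ F₂
      = ∑ j ∈ Finset.range N, (TR (k + 1) (rad (Ix k)) (s * 2 ^ (j + 1)) F₀ F₁ F₂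
        - TR (k + 1) (rad (Ix k)) (s * 2 ^ j) F₀ F₁ F₂) := by
    rw [Finset.sum_range_sub (fun j => TR (k + 1) (rad (Ix k)) (s * 2 ^ j) F₀ F₁ F₂)]
    simp
  have h1 : ((8 : ℝ) ^ (k + 1))⁻¹ * |TR (k + 1) (rad (Ix k)) (s * 2 ^ N) F₀ F₁ F₂
        - TR (k + 1) (rad (Ix k)) s F₀ F₁ F₂| ≤ ∑ j ∈ Finset.range N,
          (3 / 2) * (s * 2 ^ (j + 1)) ^ 3 *
          M3 (rad (Ix k)) (muk (k + 1) (s * 2 ^ (j + 1))) F₀ F₁ F₂ := by
    rw [h2]
    refine (mul_le_mul_of_nonneg_left (Finset.abs_sum_le_sum_abs _ _) h8.le).trans ?_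
    rw [Finset.mul_sum]
    exact Finset.sum_le_sum hj
  have h3 : |T3 (rad (Ix k)) F₀ F₁ F₂| ≤ err (k + 1) (rad (Ix k)) s N F₀ F₁ F₂
      + |TR (k + 1) (rad (Ix k)) (s * 2 ^ N) F₀ F₁ F₂
        - TR (k + 1) (rad (Ix k)) s F₀ F₁ F₂| := by
    rw [err]
    have e : T3 (rad (Ix k)) F₀ F₁ F₂
      = (T3 (rad (Ix k)) F₀ F₁ F₂ - TR (k + 1) (rad (Ix k)) (s * 2 ^ N) F₀ F₁ F₂)
        + TR (k + 1) (rad (Ix k)) s F₀ F₁ F₂
        + (TR (k + 1) (rad (Ix k)) (s * 2 ^ N) F₀ F₁ F₂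
          - TR (k + 1) (rad (Ix k)) s F₀ F₁ F₂) := by ring
    conv_lhs => rw [e]
    exact abs_add_three _ _ _
  have h4 := mul_le_mul_of_nonneg_left h3 h8.le
  rw [mul_add] at h4
  linarith

/-! ### integration -/

/-- bound of the error term -/
theorem err_abs_le (k : ℕ) (s : ℝ) (N : ℕ)
    (F₀ F₁ F₂ : Matrix (Ix k ⊕ Ix k) (Ix k ⊕ Ix k) ℝ) :
    |err (k + 1) (rad (Ix k)) s N F₀ F₁ F₂|
      ≤ 3 * ((Fintype.card (Ix k ⊕ Ix k) : ℝ) ^ 3 * (fr F₀ * fr F₁ * fr F₂)) := by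
  have a := T3_abs_le k (fr_nonneg F₀) (fr_nonneg F₁) (fr_nonneg F₂) (le_fr F₀) (le_fr F₁) (le_fr F₂)
  have b : ∀ t : ℝ, |TR (k + 1) (rad (Ix k)) t F₀ F₁ F₂|
      ≤ (Fintype.card (Ix k ⊕ Ix k) : ℝ) ^ 3 * (fr F₀ * fr F₁ * fr F₂) := fun t =>
    T3_abs_le k (fr_nonneg F₀) (fr_nonneg F₁) (fr_nonneg F₂) (reg_le_fr (muk_nonneg _ _) F₀)
      (reg_le_fr (muk_nonneg _ _) F₁) (reg_le_fr (muk_nonneg _ _) F₂)
  have b1 := b (s * 2 ^ N)
  have b2 := b s
  rw [err, abs_of_nonneg (by positivity)]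
  have := abs_sub (T3 (rad (Ix k)) F₀ F₁ F₂) (TR (k + 1) (rad (Ix k)) (s * 2 ^ N) F₀ F₁ F₂)
  linarith

theorem cont_err {α : Type*} [TopologicalSpace α] (k : ℕ) (s : ℝ) (N : ℕ)
    {A B C : α → Matrix (Ix k ⊕ Ix k) (Ix k ⊕ Ix k) ℝ} (hA : Continuous A)
    (hB : Continuous B) (hC : Continuous C) :
    Continuous (fun a => err (k + 1) (rad (Ix k)) s N (A a) (B a) (C a)) := by
  unfold err TR
  have h1 := cont_T3 hA hB hC (rad (Ix k))
  have h2 : ∀ t, Continuous (fun a => T3 (rad (Ix k)) (reg (muk (k + 1) t) (A a))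
      (reg (muk (k + 1) t) (B a)) (reg (muk (k + 1) t) (C a))) := fun t =>
    cont_T3 (cont_reg hA (muk_nonneg _ _)) (cont_reg hB (muk_nonneg _ _))
      (cont_reg hC (muk_nonneg _ _)) _
  exact (h1.sub (h2 _)).abs.add (h2 _).abs

/-- a continuous function with compact support is integrable -/
theorem integrable_cs {f : ℝ × ℝ → ℝ} (hf : Continuous f) (hs : HasCompactSupport f) :
    Integrable f volume := hf.integrable_of_hasCompactSupport hs

theorem hcs_of_zero {f : ℝ × ℝ → ℝ} {A : ℝ × ℝ → Matrix n n ℝ} (hA : HasCompactSupport A)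
    (h : ∀ p, A p = 0 → f p = 0) : HasCompactSupport f := by
  refine hA.mono ?_
  intro p hp
  simp only [Function.mem_support] at hp ⊢
  exact fun h0 => hp (h p h0)

theorem fr_zero : fr (0 : Matrix n n ℝ) = 0 := by simp [fr]

/-- the error terms tend to zero in the mean -/
theorem err_int_tendsto (k : ℕ) {A B C : ℝ × ℝ → Matrix (Ix k ⊕ Ix k) (Ix k ⊕ Ix k) ℝ}
    (hA : Continuous A) (hB : Continuous B) (hC : Continuous C) (hA0 : HasCompactSupport A) :
    Tendsto (fun J : ℕ => ∫ p, err (k + 1) (rad (Ix k)) ((2 : ℝ) ^ J)⁻¹ (2 * J) (A p) (B p) (C p))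
      atTop (𝓝 0) := by
  have hbd : Integrable (fun p => 3 * ((Fintype.card (Ix k ⊕ Ix k) : ℝ) ^ 3
      * (fr (A p) * fr (B p) * fr (C p)))) volume := by
    refine integrable_cs ?_ (hcs_of_zero hA0 ?_)
    · have h1 := cont_fr hA
      have h2 := cont_fr hB
      have h3 := cont_fr hC
      fun_prop
    · intro p hp
      rw [hp, fr_zero]; ring
  have h := tendsto_integral_of_dominated_convergence (μ := (volume : Measure (ℝ × ℝ)))
    (F := fun J : ℕ => fun p => err (k + 1) (rad (Ix k)) ((2 : ℝ) ^ J)⁻¹ (2 * J) (A p) (B p) (C p))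
    (f := fun _ => 0) _
    (fun J => (cont_err k _ _ hA hB hC).aestronglyMeasurable) hbd
    (fun J => Filter.Eventually.of_forall fun p => by
      rw [Real.norm_eq_abs]; exact err_abs_le k _ _ _ _ _)
    (Filter.Eventually.of_forall fun p => err_tendsto (k + 1) (rad (Ix k)) (A p) (B p) (C p))
  simpa using h

theorem MnG_zero_left (r : Matrix n n ℝ) (μ : ℝ) (H : Matrix n n ℝ) : MnG r μ 0 H = 0 := by
  have : phi (gramC μ (0 : Matrix n n ℝ)) = 0 := by simp [phi, res, gramC]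
  rw [MnG, this, Matrix.zero_mul, trace_zero]

theorem MnG_zero_right (r : Matrix n n ℝ) (μ : ℝ) (H : Matrix n n ℝ) : MnG r μ H 0 = 0 := by
  have : phi (gramR μ (0 : Matrix n n ℝ)) = 0 := by simp [phi, res, gramR]
  rw [MnG, this, Matrix.mul_zero, Matrix.zero_mul, Matrix.mul_zero, trace_zero]

theorem T3_zero_left (r : Matrix n n ℝ) (F H : Matrix n n ℝ) : T3 r 0 F H = 0 := by
  rw [T3]; simp

theorem reg_zero (μ : ℝ) : reg μ (0 : Matrix n n ℝ) = 0 := by rw [reg, Matrix.zero_mul]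

theorem err_zero_left (k : ℕ) (r : Matrix n n ℝ) (s : ℝ) (N : ℕ) (F H : Matrix n n ℝ) :
    err k r s N 0 F H = 0 := by
  rw [err, TR, TR, T3_zero_left, reg_zero, T3_zero_left, reg_zero, T3_zero_left]; simp

/-- integrated level inequality -/
theorem T3_int (k : ℕ) {s : ℝ} (hs : 0 < s) (N : ℕ)
    {A B C : ℝ × ℝ → Matrix (Ix k ⊕ Ix k) (Ix k ⊕ Ix k) ℝ}
    (hA : Continuous A) (hB : Continuous B) (hC : Continuous C)
    (hA0 : HasCompactSupport A) (hB0 : HasCompactSupport B) :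
    ((8 : ℝ) ^ (k + 1))⁻¹ * |∫ p, T3 (rad (Ix k)) (A p) (B p) (C p)|
      ≤ ((8 : ℝ) ^ (k + 1))⁻¹ * (∫ p, err (k + 1) (rad (Ix k)) s N (A p) (B p) (C p))
        + ∑ j ∈ Finset.range N, (3 / 2) * (s * 2 ^ (j + 1)) ^ 3 *
          ((∫ p, MnG (rad (Ix k)) (muk (k + 1) (s * 2 ^ (j + 1))) (A p) (B p))
          + (∫ p, MnG (rad (Ix k)) (muk (k + 1) (s * 2 ^ (j + 1))) (B p) (C p))
          + (∫ p, MnG (rad (Ix k)) (muk (k + 1) (s * 2 ^ (j + 1))) (C p) (A p))) := by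
  have iE : Integrable (fun p => err (k + 1) (rad (Ix k)) s N (A p) (B p) (C p)) volume :=
    integrable_cs (cont_err k s N hA hB hC) (hcs_of_zero hA0 fun p hp => by
      rw [hp, err_zero_left])
  have iT : Integrable (fun p => |T3 (rad (Ix k)) (A p) (B p) (C p)|) volume :=
    integrable_cs (cont_T3 hA hB hC _).abs (hcs_of_zero hA0 fun p hp => by
      rw [hp, T3_zero_left, abs_zero])
  have i1 : ∀ j, Integrable (fun p => MnG (rad (Ix k)) (muk (k + 1) (s * 2 ^ (j + 1)))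
      (A p) (B p)) volume := fun j =>
    integrable_cs (cont_MnG hA hB _ (muk_nonneg _ _)) (hcs_of_zero hA0 fun p hp => by
      rw [hp, MnG_zero_left])
  have i2 : ∀ j, Integrable (fun p => MnG (rad (Ix k)) (muk (k + 1) (s * 2 ^ (j + 1)))
      (B p) (C p)) volume := fun j =>
    integrable_cs (cont_MnG hB hC _ (muk_nonneg _ _)) (hcs_of_zero hB0 fun p hp => by
      rw [hp, MnG_zero_left])
  have i3 : ∀ j, Integrable (fun p => MnG (rad (Ix k)) (muk (k + 1) (s * 2 ^ (j + 1)))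
      (C p) (A p)) volume := fun j =>
    integrable_cs (cont_MnG hC hA _ (muk_nonneg _ _)) (hcs_of_zero hA0 fun p hp => by
      rw [hp, MnG_zero_right])
  have iM : ∀ j, Integrable (fun p => (3 / 2) * (s * 2 ^ (j + 1)) ^ 3 *
      M3 (rad (Ix k)) (muk (k + 1) (s * 2 ^ (j + 1))) (A p) (B p) (C p)) volume := fun j => by
    unfold M3
    exact (((i1 j).add (i2 j)).add (i3 j)).const_mul _
  have h1 : ((8 : ℝ) ^ (k + 1))⁻¹ * |∫ p, T3 (rad (Ix k)) (A p) (B p) (C p)|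
      ≤ ∫ p, ((8 : ℝ) ^ (k + 1))⁻¹ * |T3 (rad (Ix k)) (A p) (B p) (C p)| := by
    rw [integral_const_mul]
    exact mul_le_mul_of_nonneg_left (abs_integral_le_integral_abs) (by positivity)
  refine h1.trans ?_
  have h2 : ∫ p, ((8 : ℝ) ^ (k + 1))⁻¹ * |T3 (rad (Ix k)) (A p) (B p) (C p)|
      ≤ ∫ p, (((8 : ℝ) ^ (k + 1))⁻¹ * err (k + 1) (rad (Ix k)) s N (A p) (B p) (C p)
        + ∑ j ∈ Finset.range N, (3 / 2) * (s * 2 ^ (j + 1)) ^ 3 *
          M3 (rad (Ix k)) (muk (k + 1) (s * 2 ^ (j + 1))) (A p) (B p) (C p)) := by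
    refine integral_mono (iT.const_mul _) ((iE.const_mul _).add
      (integrable_finsetSum _ fun j _ => iM j)) ?_
    intro p
    exact T3_pt k hs N (A p) (B p) (C p)
  refine h2.trans (le_of_eq ?_)
  rw [integral_add (iE.const_mul _) (integrable_finsetSum _ fun j _ => iM j),
    integral_const_mul, integral_finsetSum _ fun j _ => iM j]
  congr 1
  refine Finset.sum_congr rfl fun j _ => ?_
  rw [integral_const_mul]
  congr 1
  unfold M3
  have g1 := integral_add ((i1 j).add (i2 j)) (i3 j)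
  have g2 := integral_add (i1 j) (i2 j)
  simp only [Pi.add_apply] at g1
  rw [g1, g2]

/-! ### samples -/

/-- rotation of the plane `x + y + z = s` -/
def rot (s : ℝ) (p : ℝ × ℝ) : ℝ × ℝ := (p.2, s - p.1 - p.2)

theorem rot_rot (s : ℝ) (p : ℝ × ℝ) : rot s (rot s p) = (s - p.1 - p.2, p.1) := by
  unfold rot
  ext
  · rfl
  · simp

theorem rot_three (s : ℝ) (p : ℝ × ℝ) : rot s (rot s (rot s p)) = p := by
  rw [rot_rot]
  unfold rot
  ext
  · simp
  · rfl

theorem cont_rot (s : ℝ) : Continuous (rot s) := by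
  unfold rot
  fun_prop

theorem mp_rot (s : ℝ) : MeasurePreserving (rot s) (volume : Measure (ℝ × ℝ)) volume := by
  have h1 : MeasurePreserving (Prod.swap : ℝ × ℝ → ℝ × ℝ) volume volume :=
    Measure.measurePreserving_swap
  have h2 : MeasurePreserving (fun q : ℝ × ℝ => (id q.1, (s - q.1) - q.2))
      ((volume : Measure ℝ).prod (volume : Measure ℝ)) (volume.prod volume) := by
    refine MeasurePreserving.skew_product (MeasurePreserving.id _)
      (g := fun y x => (s - y) - x) (by fun_prop) ?_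
    exact Filter.Eventually.of_forall fun y =>
      (Measure.measurePreserving_sub_left volume (s - y)).map_eq
  have h3 := h2.comp h1
  have e : rot s = (fun q : ℝ × ℝ => (id q.1, (s - q.1) - q.2)) ∘ Prod.swap := by
    funext p
    unfold rot
    ext
    · rfl
    · simp only [Function.comp_apply, Prod.fst_swap, Prod.snd_swap]; ring
  rw [e]
  exact h3

theorem int_rot (s : ℝ) {f : ℝ × ℝ → ℝ} (hf : Continuous f) :
    ∫ p, f (rot s p) = ∫ p, f p := by
  have h := integral_map (μ := (volume : Measure (ℝ × ℝ))) (φ := rot s)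
    (cont_rot s).measurable.aemeasurable (f := f) hf.aestronglyMeasurable
  rw [(mp_rot s).map_eq] at h
  exact h.symm

theorem cont_smp' (η : ℝ) (k : ℕ) {G : ℝ × ℝ → ℝ} (hG : Continuous G) :
    Continuous (fun p => smp' η k G p) := by
  refine continuous_matrix fun i j => ?_
  unfold smp' smp
  fun_prop

theorem hcs_smp' (η : ℝ) (k : ℕ) {G : ℝ × ℝ → ℝ} (hG : HasCompactSupport G) :
    HasCompactSupport (fun p => smp' η k G p) := by
  have hK : IsCompact (⋃ i : Ix k ⊕ Ix k, ⋃ j : Ix k ⊕ Ix k,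
      (Homeomorph.addRight ((η * val (k + 1) i, η * val (k + 1) j) : ℝ × ℝ)) ⁻¹' tsupport G) := by
    refine isCompact_iUnion fun i => isCompact_iUnion fun j => ?_
    exact (Homeomorph.isCompact_preimage _).2 hG
  refine HasCompactSupport.intro hK ?_
  intro p hp
  funext i j
  simp only [Set.mem_iUnion, Set.mem_preimage, not_exists] at hp
  have h := hp i j
  have h2 : G (p + (η * val (k + 1) i, η * val (k + 1) j)) = 0 :=
    image_eq_zero_of_notMem_tsupport h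
  exact h2

theorem hcs_rot (s : ℝ) {A : ℝ × ℝ → Matrix n n ℝ} (hA : HasCompactSupport A) :
    HasCompactSupport (fun p => A (rot s p)) := by
  have hh : rot s ∘ (fun p => rot s (rot s p)) = id := by
    funext p; exact rot_three s p
  have hK : IsCompact ((fun p => rot s (rot s p)) '' tsupport A) :=
    hA.isCompact.image ((cont_rot s).comp (cont_rot s))
  refine HasCompactSupport.intro hK ?_
  intro p hp
  have : rot s p ∉ tsupport A := by
    intro h
    exact hp ⟨rot s p, h, rot_three s p⟩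
  exact image_eq_zero_of_notMem_tsupport this

theorem muk_eq (k : ℕ) (τ : ℝ) :
    muk (k + 1) τ = ((2 : ℝ) ^ (k + 1) * 2 ^ (k + 1) * τ ^ 2)⁻¹ := by
  unfold muk
  congr 1
  ring

theorem gramC_smp' (η τ : ℝ) (k : ℕ) (F : ℝ × ℝ → ℝ) (p : ℝ × ℝ) :
    gramC (muk (k + 1) τ) (smp' η k F p) = XS η τ (k + 1) k F p := by
  rw [muk_eq]
  rfl

theorem gramR_smp' (η τ : ℝ) (k : ℕ) (H : ℝ × ℝ → ℝ) (q : ℝ × ℝ) :
    gramR (muk (k + 1) τ) (smp' η k H q) = XS η τ (k + 1) k (flip H) (q.2, q.1) := by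
  rw [muk_eq]
  rfl

theorem MnG_smp' (η τ : ℝ) (k : ℕ) (F H : ℝ × ℝ → ℝ) (s : ℝ) (p : ℝ × ℝ) :
    MnG (rad (Ix k)) (muk (k + 1) τ) (smp' η k F p) (smp' η k H (rot s p)) = mn η τ k F H s p := by
  rw [MnG, gramC_smp', gramR_smp']
  rfl

/-- the main term is continuous -/
theorem cont_mn (η τ : ℝ) (k : ℕ) {F H : ℝ × ℝ → ℝ} (hF : Continuous F) (hH : Continuous H)
    (s : ℝ) : Continuous (mn η τ k F H s) := by
  have h := cont_MnG (cont_smp' η k hF) ((cont_smp' η k hH).comp (cont_rot s)) (rad (Ix k))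
    (muk_nonneg (k + 1) τ)
  have e : (fun a => MnG (rad (Ix k)) (muk (k + 1) τ) (smp' η k F a)
      (((fun p => smp' η k H p) ∘ rot s) a)) = mn η τ k F H s := by
    funext p
    exact MnG_smp' η τ k F H s p
  rw [e] at h
  exact h

/-- the integrated level inequality for the samples -/
theorem lev_int (η : ℝ) (k : ℕ) {t : ℝ} (ht : 0 < t) (N : ℕ) {G₀ G₁ G₂ : ℝ × ℝ → ℝ}
    (h0 : CC G₀) (h1 : CC G₁) (h2 : CC G₂) (s : ℝ) :
    ((8 : ℝ) ^ (k + 1))⁻¹ * |∫ p : ℝ × ℝ, T3 (rad (Ix k)) (smp' η k G₀ p)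
      (smp' η k G₁ (p.2, s - p.1 - p.2)) (smp' η k G₂ (s - p.1 - p.2, p.1))|
      ≤ ((8 : ℝ) ^ (k + 1))⁻¹ * (∫ p : ℝ × ℝ, err (k + 1) (rad (Ix k)) t N (smp' η k G₀ p)
          (smp' η k G₁ (rot s p)) (smp' η k G₂ (rot s (rot s p))))
        + ∑ j ∈ Finset.range N, (3 / 2) * (t * 2 ^ (j + 1)) ^ 3 *
          ((∫ p, mn η (t * 2 ^ (j + 1)) k G₀ G₁ s p) + (∫ p, mn η (t * 2 ^ (j + 1)) k G₁ G₂ s p)
          + (∫ p, mn η (t * 2 ^ (j + 1)) k G₂ G₀ s p)) := by
  have hA := cont_smp' η k h0.1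
  have hB := (cont_smp' η k h1.1).comp (cont_rot s)
  have hC := (cont_smp' η k h2.1).comp ((cont_rot s).comp (cont_rot s))
  have hA0 := hcs_smp' η k h0.2
  have hB0 := hcs_rot s (hcs_smp' η k h1.2)
  have h := T3_int k ht N hA hB hC hA0 hB0
  simp only [Function.comp_apply] at h
  have e : ∀ p : ℝ × ℝ, T3 (rad (Ix k)) (smp' η k G₀ p) (smp' η k G₁ (p.2, s - p.1 - p.2))
      (smp' η k G₂ (s - p.1 - p.2, p.1)) = T3 (rad (Ix k)) (smp' η k G₀ p)
        (smp' η k G₁ (rot s p)) (smp' η k G₂ (rot s (rot s p))) := by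
    intro p
    rw [rot_rot]
    rfl
  have e1 : ∀ j, ∫ p, MnG (rad (Ix k)) (muk (k + 1) (t * 2 ^ (j + 1))) (smp' η k G₀ p)
      (smp' η k G₁ (rot s p)) = ∫ p, mn η (t * 2 ^ (j + 1)) k G₀ G₁ s p := by
    intro j
    exact integral_congr_ae (Filter.Eventually.of_forall fun p => MnG_smp' _ _ _ _ _ _ _)
  have e2 : ∀ j, ∫ p, MnG (rad (Ix k)) (muk (k + 1) (t * 2 ^ (j + 1))) (smp' η k G₁ (rot s p))
      (smp' η k G₂ (rot s (rot s p))) = ∫ p, mn η (t * 2 ^ (j + 1)) k G₁ G₂ s p := by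
    intro j
    rw [← int_rot s (cont_mn η (t * 2 ^ (j + 1)) k h1.1 h2.1 s)]
    exact integral_congr_ae (Filter.Eventually.of_forall fun p => MnG_smp' _ _ _ _ _ _ _)
  have e3 : ∀ j, ∫ p, MnG (rad (Ix k)) (muk (k + 1) (t * 2 ^ (j + 1)))
      (smp' η k G₂ (rot s (rot s p))) (smp' η k G₀ p) = ∫ p, mn η (t * 2 ^ (j + 1)) k G₂ G₀ s p := by
    intro j
    have q := int_rot s (f := fun p => mn η (t * 2 ^ (j + 1)) k G₂ G₀ s (rot s p))
      ((cont_mn η (t * 2 ^ (j + 1)) k h2.1 h0.1 s).comp (cont_rot s))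
    rw [← int_rot s (cont_mn η (t * 2 ^ (j + 1)) k h2.1 h0.1 s), ← q]
    refine integral_congr_ae (Filter.Eventually.of_forall fun p => ?_)
    have := MnG_smp' η (t * 2 ^ (j + 1)) k G₂ G₀ s (rot s (rot s p))
    rw [rot_three] at this
    exact this
  simp only [e1, e2, e3] at h
  simp only [e]
  exact h

/-! ### scalar part -/

theorem hh_cont : ContinuousOn hh (Set.Ici 0) := by
  unfold hh
  refine ContinuousOn.div (by fun_prop) (by fun_prop) ?_
  intro x hx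
  have : (0 : ℝ) ≤ x := hx
  positivity

theorem hh_int {G : ℝ × ℝ → ℝ} (hG : CC G) (τ : ℝ) :
    Integrable (fun p => hh (G p ^ 2 / τ ^ 2)) volume := by
  refine integrable_cs ?_ ?_
  · refine hh_cont.comp_continuous ?_ fun p => ?_
    · have := hG.1
      fun_prop
    · exact Set.mem_Ici.2 (by positivity)
  · refine hG.2.mono ?_
    intro p hp
    simp only [Function.mem_support] at hp ⊢
    intro h0
    apply hp
    rw [h0]
    simp [hh]

theorem I3_int {G : ℝ × ℝ → ℝ} (hG : CC G) : Integrable (fun p => |G p| ^ 3) volume := by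
  refine integrable_cs (by have := hG.1; fun_prop) ?_
  refine hG.2.mono ?_
  intro p hp
  simp only [Function.mem_support] at hp ⊢
  intro h0
  apply hp
  rw [h0]
  simp

theorem sum_hh {G : ℝ × ℝ → ℝ} (hG : CC G) {t : ℝ} (ht : 0 < t) (N : ℕ) :
    ∑ j ∈ Finset.range N, (t * 2 ^ (j + 1)) ^ 3 * (∫ p, hh (G p ^ 2 / (t * 2 ^ (j + 1)) ^ 2))
      ≤ (7 / 2) * I3 G := by
  simp only [← integral_const_mul]
  rw [← integral_finsetSum _ fun j _ => (hh_int hG _).const_mul _, I3, ← integral_const_mul]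
  refine integral_mono (integrable_finsetSum _ fun j _ => (hh_int hG _).const_mul _)
    ((I3_int hG).const_mul _) ?_
  intro p
  have h := sum_level_scalar (abs_nonneg (G p)) ht N
  simp only [sq_abs] at h
  exact h

/-- **LEV** -/
theorem lev_of (H : StStep) : StLev := by
  refine ⟨945, ?_⟩
  intro G₀ G₁ G₂ h0 h1 h2 η hη m
  set E : ℕ → ℝ := fun J => ∑ k ∈ Finset.Icc 1 m, ((8 : ℝ) ^ (k + 1))⁻¹ *
    (∫ p : ℝ × ℝ, err (k + 1) (rad (Ix k)) ((2 : ℝ) ^ J)⁻¹ (2 * J) (smp' η k G₀ p)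
      (smp' η k G₁ (rot (-3 * 2 ^ k * η) p)) (smp' η k G₂ (rot (-3 * 2 ^ k * η)
        (rot (-3 * 2 ^ k * η) p)))) with hE
  have hE0 : Tendsto E atTop (𝓝 0) := by
    have : Tendsto E atTop (𝓝 (∑ k ∈ Finset.Icc 1 m, ((8 : ℝ) ^ (k + 1))⁻¹ * 0)) := by
      refine tendsto_finsetSum _ fun k _ => ?_
      refine Tendsto.const_mul _ ?_
      exact err_int_tendsto k (cont_smp' η k h0.1)
        ((cont_smp' η k h1.1).comp (cont_rot _))
        ((cont_smp' η k h2.1).comp ((cont_rot _).comp (cont_rot _))) (hcs_smp' η k h0.2)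
    simpa using this
  have key : ∀ J : ℕ, ∑ k ∈ Finset.Icc 1 m, ((8 : ℝ) ^ (k + 1))⁻¹ *
      |∫ p : ℝ × ℝ, T3 (rad (Ix k)) (smp' η k G₀ p)
        (smp' η k G₁ (p.2, -3 * 2 ^ k * η - p.1 - p.2))
        (smp' η k G₂ (-3 * 2 ^ k * η - p.1 - p.2, p.1))| ≤ E J + 945 * (I3 G₀ + I3 G₁ + I3 G₂) := by
    intro J
    have ht : (0 : ℝ) < ((2 : ℝ) ^ J)⁻¹ := by positivity
    set t : ℝ := ((2 : ℝ) ^ J)⁻¹ with htd
    have a1 : ∀ k ∈ Finset.Icc 1 m, _ := fun k _ =>
      lev_int η k ht (2 * J) h0 h1 h2 (-3 * 2 ^ k * η)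
    refine (Finset.sum_le_sum a1).trans ?_
    rw [Finset.sum_add_distrib]
    refine add_le_add (le_of_eq ?_) ?_
    · rw [hE]
    rw [Finset.sum_comm]
    have a2 : ∀ j ∈ Finset.range (2 * J), ∑ k ∈ Finset.Icc 1 m, (3 / 2) * (t * 2 ^ (j + 1)) ^ 3 *
          ((∫ p, mn η (t * 2 ^ (j + 1)) k G₀ G₁ (-3 * 2 ^ k * η) p)
          + (∫ p, mn η (t * 2 ^ (j + 1)) k G₁ G₂ (-3 * 2 ^ k * η) p)
          + (∫ p, mn η (t * 2 ^ (j + 1)) k G₂ G₀ (-3 * 2 ^ k * η) p))
        ≤ 135 * ((t * 2 ^ (j + 1)) ^ 3 * (∫ p, hh (G₀ p ^ 2 / (t * 2 ^ (j + 1)) ^ 2)))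
          + 135 * ((t * 2 ^ (j + 1)) ^ 3 * (∫ p, hh (G₁ p ^ 2 / (t * 2 ^ (j + 1)) ^ 2)))
          + 135 * ((t * 2 ^ (j + 1)) ^ 3 * (∫ p, hh (G₂ p ^ 2 / (t * 2 ^ (j + 1)) ^ 2))) := by
      intro j _
      have hτ : 0 < t * 2 ^ (j + 1) := by positivity
      set τ := t * 2 ^ (j + 1) with hτd
      have b1 := H G₀ G₁ h0 h1 η τ hη hτ m
      have b2 := H G₁ G₂ h1 h2 η τ hη hτ m
      have b3 := H G₂ G₀ h2 h0 η τ hη hτ m
      rw [← Finset.mul_sum, Finset.sum_add_distrib, Finset.sum_add_distrib]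
      have hc : 0 ≤ (3 / 2) * τ ^ 3 := by positivity
      have b4 := mul_le_mul_of_nonneg_left (add_le_add (add_le_add b1 b2) b3) hc
      refine b4.trans (le_of_eq ?_)
      ring
    refine (Finset.sum_le_sum a2).trans ?_
    rw [Finset.sum_add_distrib, Finset.sum_add_distrib, ← Finset.mul_sum, ← Finset.mul_sum,
      ← Finset.mul_sum]
    have c0 := sum_hh h0 ht (2 * J)
    have c1 := sum_hh h1 ht (2 * J)
    have c2 := sum_hh h2 ht (2 * J)
    have d0 : 0 ≤ I3 G₀ := integral_nonneg fun p => by positivity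
    have d1 : 0 ≤ I3 G₁ := integral_nonneg fun p => by positivity
    have d2 : 0 ≤ I3 G₂ := integral_nonneg fun p => by positivity
    linarith
  have hlim : Tendsto (fun J => E J + 945 * (I3 G₀ + I3 G₁ + I3 G₂)) atTop
      (𝓝 (0 + 945 * (I3 G₀ + I3 G₁ + I3 G₂))) := hE0.add_const _
  rw [zero_add] at hlim
  exact ge_of_tendsto' hlim key

end Vale.Agent.P075.R.H908
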