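import Vale.Agent.P075.R.Defs
import Mathlib

/-!
# P075, Question 1: density and complexification
-/

set_option linter.unusedSectionVars false
set_option linter.unusedVariables false

namespace Vale.Agent.P075.R.H908

open MeasureTheory Filter Topology Vale.Agent.P075 Vale.Agent.P075.R

/-- the norm used in the statement -/
noncomputable def N3 (G : ℝ × ℝ → ℂ) : ℝ := (eLpNorm G 3 volume).toReal

theorem N3_nonneg (G : ℝ × ℝ → ℂ) : 0 ≤ N3 G := ENNReal.toReal_nonneg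

theorem CC.memLp {G : ℝ × ℝ → ℂ} (hc : Continuous G) (hs : HasCompactSupport G) :
    MemLp G 3 volume := hc.memLp_of_hasCompactSupport hs

/-- extension of a bound from `C_c` to `L³`, one variable -/
theorem ext1 (T : (ℝ × ℝ → ℂ) → ℂ) {D B : ℝ} (hD0 : 0 ≤ D) (hB0 : 0 ≤ B)
    (hsub : ∀ G H, MemLp G 3 volume → MemLp H 3 volume → T G = T H + T (G - H))
    (hD : ∀ G, MemLp G 3 volume → ‖T G‖ ≤ D * N3 G)
    (hB : ∀ G, Continuous G → HasCompactSupport G → ‖T G‖ ≤ B * N3 G) :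
    ∀ G, MemLp G 3 volume → ‖T G‖ ≤ B * N3 G := by
  intro G hG
  have key : ∀ δ : ℝ, 0 < δ → ‖T G‖ ≤ B * N3 G + δ * (B + D) := by
    intro δ hδ
    obtain ⟨g, hg1, hg2, hg3, hg4⟩ := hG.exists_hasCompactSupport_eLpNorm_sub_le
      (by norm_num) (ε := ENNReal.ofReal δ) (by simpa using hδ)
    have hd : MemLp (G - g) 3 volume := hG.sub hg4
    have n1 : N3 (G - g) ≤ δ := by
      unfold N3
      exact ENNReal.toReal_le_of_le_ofReal hδ.le hg2
    have n2 : N3 g ≤ N3 G + δ := by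
      have h1 : eLpNorm g 3 volume ≤ eLpNorm G 3 volume + eLpNorm (G - g) 3 volume := by
        have h2 : g = G - (G - g) := by simp
        calc eLpNorm g 3 volume = eLpNorm (G - (G - g)) 3 volume := by rw [← h2]
          _ ≤ _ := eLpNorm_sub_le hG.1 hd.1 (by norm_num)
      have h3 : N3 g ≤ N3 G + N3 (G - g) := by
        unfold N3
        rw [← ENNReal.toReal_add hG.2.ne hd.2.ne]
        exact ENNReal.toReal_mono (ENNReal.add_ne_top.2 ⟨hG.2.ne, hd.2.ne⟩) h1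
      linarith
    have h4 := hsub G g hG hg4
    have h5 := hD (G - g) hd
    have h6 := hB g hg3 hg1
    calc ‖T G‖ ≤ ‖T g‖ + ‖T (G - g)‖ := by rw [h4]; exact norm_add_le _ _
      _ ≤ B * N3 g + D * N3 (G - g) := add_le_add h6 h5
      _ ≤ B * (N3 G + δ) + D * δ := by gcongr
      _ = B * N3 G + δ * (B + D) := by ring
  have hlim : Tendsto (fun δ : ℝ => B * N3 G + δ * (B + D)) (𝓝[>] 0) (𝓝 (B * N3 G + 0 * (B + D))) := by
    refine Tendsto.mono_left ?_ nhdsWithin_le_nhds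
    exact tendsto_const_nhds.add (tendsto_id.mul_const _)
  rw [zero_mul, add_zero] at hlim
  refine ge_of_tendsto hlim ?_
  filter_upwards [self_mem_nhdsWithin] with δ hδ
  exact key δ hδ

/-- Hölder bound with a constant depending on `ε, R` -/
def StHol : Prop := ∀ ε R : ℝ, 0 < ε → ε < R → ∃ D : ℝ, 0 ≤ D ∧ ∀ (G₀ G₁ G₂ : ℝ × ℝ → ℂ),
  MemLp G₀ 3 volume → MemLp G₁ 3 volume → MemLp G₂ 3 volume →
    Integrable (kern ε R G₀ G₁ G₂) volume ∧
    ‖∫ x, kern ε R G₀ G₁ G₂ x‖ ≤ D * (N3 G₀ * N3 G₁ * N3 G₂)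

/-- the bound for real continuous functions with compact support, in terms of `kern` -/
def StRK : Prop := ∃ C : ℝ, 0 ≤ C ∧ ∀ (G₀ G₁ G₂ : ℝ × ℝ → ℝ), CC G₀ → CC G₁ → CC G₂ →
  ∀ ε R : ℝ, 0 < ε → ε < R →
    ‖∫ x, kern ε R (fun p => (G₀ p : ℂ)) (fun p => (G₁ p : ℂ)) (fun p => (G₂ p : ℂ)) x‖
      ≤ C * (N3 (fun p => (G₀ p : ℂ)) * N3 (fun p => (G₁ p : ℂ)) * N3 (fun p => (G₂ p : ℂ)))

theorem kern_add0 (ε R : ℝ) (A B G₁ G₂ : ℝ × ℝ → ℂ) (x : ℝ × ℝ × ℝ) :
    kern ε R (A + B) G₁ G₂ x = kern ε R A G₁ G₂ x + kern ε R B G₁ G₂ x := by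
  unfold kern
  split_ifs
  · simp only [Pi.add_apply]; ring
  · simp

theorem kern_add1 (ε R : ℝ) (G₀ A B G₂ : ℝ × ℝ → ℂ) (x : ℝ × ℝ × ℝ) :
    kern ε R G₀ (A + B) G₂ x = kern ε R G₀ A G₂ x + kern ε R G₀ B G₂ x := by
  unfold kern
  split_ifs
  · simp only [Pi.add_apply]; ring
  · simp

theorem kern_add2 (ε R : ℝ) (G₀ G₁ A B : ℝ × ℝ → ℂ) (x : ℝ × ℝ × ℝ) :
    kern ε R G₀ G₁ (A + B) x = kern ε R G₀ G₁ A x + kern ε R G₀ G₁ B x := by
  unfold kern
  split_ifs
  · simp only [Pi.add_apply]; ring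
  · simp

theorem kern_smul0 (ε R : ℝ) (c : ℂ) (A G₁ G₂ : ℝ × ℝ → ℂ) (x : ℝ × ℝ × ℝ) :
    kern ε R (c • A) G₁ G₂ x = c * kern ε R A G₁ G₂ x := by
  unfold kern
  split_ifs
  · simp only [Pi.smul_apply, smul_eq_mul]; ring
  · simp

theorem kern_smul1 (ε R : ℝ) (c : ℂ) (G₀ A G₂ : ℝ × ℝ → ℂ) (x : ℝ × ℝ × ℝ) :
    kern ε R G₀ (c • A) G₂ x = c * kern ε R G₀ A G₂ x := by
  unfold kern
  split_ifs
  · simp only [Pi.smul_apply, smul_eq_mul]; ring
  · simp

theorem kern_smul2 (ε R : ℝ) (c : ℂ) (G₀ G₁ A : ℝ × ℝ → ℂ) (x : ℝ × ℝ × ℝ) :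
    kern ε R G₀ G₁ (c • A) x = c * kern ε R G₀ G₁ A x := by
  unfold kern
  split_ifs
  · simp only [Pi.smul_apply, smul_eq_mul]; ring
  · simp

/-- real part as a function -/
def reP (G : ℝ × ℝ → ℂ) : ℝ × ℝ → ℝ := fun p => (G p).re
/-- imaginary part as a function -/
def imP (G : ℝ × ℝ → ℂ) : ℝ × ℝ → ℝ := fun p => (G p).im
/-- complexification -/
def cx (G : ℝ × ℝ → ℝ) : ℝ × ℝ → ℂ := fun p => (G p : ℂ)

theorem split_cx (G : ℝ × ℝ → ℂ) : G = cx (reP G) + Complex.I • cx (imP G) := by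
  funext p
  simp only [Pi.add_apply, Pi.smul_apply, cx, reP, imP, smul_eq_mul]
  rw [mul_comm]
  exact (Complex.re_add_im (G p)).symm

theorem CC_re {G : ℝ × ℝ → ℂ} (hc : Continuous G) (hs : HasCompactSupport G) : CC (reP G) := by
  refine ⟨Complex.continuous_re.comp hc, ?_⟩
  refine hs.mono ?_
  intro p hp
  simp only [Function.mem_support, reP] at hp ⊢
  intro h
  exact hp (by rw [h]; rfl)

theorem CC_im {G : ℝ × ℝ → ℂ} (hc : Continuous G) (hs : HasCompactSupport G) : CC (imP G) := by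
  refine ⟨Complex.continuous_im.comp hc, ?_⟩
  refine hs.mono ?_
  intro p hp
  simp only [Function.mem_support, imP] at hp ⊢
  intro h
  exact hp (by rw [h]; rfl)

theorem memLp_cx {G : ℝ × ℝ → ℝ} (hG : CC G) : MemLp (cx G) 3 volume := by
  refine Continuous.memLp_of_hasCompactSupport (Complex.continuous_ofReal.comp hG.1) ?_
  refine hG.2.mono ?_
  intro p hp
  simp only [Function.mem_support, cx] at hp ⊢
  intro h
  exact hp (by rw [h]; simp)

theorem N3_re {G : ℝ × ℝ → ℂ} (hG : MemLp G 3 volume) : N3 (cx (reP G)) ≤ N3 G := by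
  unfold N3
  refine ENNReal.toReal_mono hG.2.ne (eLpNorm_mono fun p => ?_)
  simp only [cx, reP, Complex.norm_real, Real.norm_eq_abs]
  exact Complex.abs_re_le_norm _

theorem N3_im {G : ℝ × ℝ → ℂ} (hG : MemLp G 3 volume) : N3 (cx (imP G)) ≤ N3 G := by
  unfold N3
  refine ENNReal.toReal_mono hG.2.ne (eLpNorm_mono fun p => ?_)
  simp only [cx, imP, Complex.norm_real, Real.norm_eq_abs]
  exact Complex.abs_im_le_norm _

/-- one-variable complexification -/
theorem cx1 (T : (ℝ × ℝ → ℂ) → ℂ) {B : ℝ} (hB0 : 0 ≤ B)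
    (hadd : ∀ G H, MemLp G 3 volume → MemLp H 3 volume → T (G + H) = T G + T H)
    (hsm : ∀ (c : ℂ) G, T (c • G) = c * T G)
    (hB : ∀ G, CC G → ‖T (cx G)‖ ≤ B * N3 (cx G)) :
    ∀ G, Continuous G → HasCompactSupport G → ‖T G‖ ≤ (2 * B) * N3 G := by
  intro G hc hs
  have hG : MemLp G 3 volume := hc.memLp_of_hasCompactSupport hs
  have h1 := hB _ (CC_re hc hs)
  have h2 := hB _ (CC_im hc hs)
  have e : T G = T (cx (reP G)) + Complex.I * T (cx (imP G)) := by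
    conv_lhs => rw [split_cx G]
    rw [hadd _ _ (memLp_cx (CC_re hc hs)) ((memLp_cx (CC_im hc hs)).const_smul _), hsm]
  have h3 := mul_le_mul_of_nonneg_left (N3_re hG) hB0
  have h4 := mul_le_mul_of_nonneg_left (N3_im hG) hB0
  calc ‖T G‖ ≤ ‖T (cx (reP G))‖ + ‖Complex.I * T (cx (imP G))‖ := by rw [e]; exact norm_add_le _ _
    _ = ‖T (cx (reP G))‖ + ‖T (cx (imP G))‖ := by rw [norm_mul, Complex.norm_I, one_mul]
    _ ≤ B * N3 G + B * N3 G := add_le_add (h1.trans h3) (h2.trans h4)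
    _ = 2 * B * N3 G := by ring

/-- one-variable step: from real `C_c` to complex `L³` -/
theorem step1 (T : (ℝ × ℝ → ℂ) → ℂ) {D B : ℝ} (hD0 : 0 ≤ D) (hB0 : 0 ≤ B)
    (hadd : ∀ G H, MemLp G 3 volume → MemLp H 3 volume → T (G + H) = T G + T H)
    (hsm : ∀ (c : ℂ) G, T (c • G) = c * T G)
    (hD : ∀ G, MemLp G 3 volume → ‖T G‖ ≤ D * N3 G)
    (hB : ∀ G, CC G → ‖T (cx G)‖ ≤ B * N3 (cx G)) :
    ∀ G, MemLp G 3 volume → ‖T G‖ ≤ (2 * B) * N3 G := by
  refine ext1 T hD0 (by positivity) ?_ hD (cx1 T hB0 hadd hsm hB)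
  intro G H hG hH
  have := hadd H (G - H) hH (hG.sub hH)
  rw [← this]
  congr 1
  simp

/-- **density and complexification** -/
theorem full_of (h1 : StHol) (h2 : StRK) : StFull := by
  obtain ⟨C, hC0, hC⟩ := h2
  refine ⟨8 * C, ?_⟩
  intro G₀ G₁ G₂ m0 m1 m2 ε R hε hR
  obtain ⟨D, hD0, hD⟩ := h1 ε R hε hR
  refine ⟨(hD G₀ G₁ G₂ m0 m1 m2).1, ?_⟩
  have i : ∀ {A B E : ℝ × ℝ → ℂ}, MemLp A 3 volume → MemLp B 3 volume → MemLp E 3 volume →
      Integrable (kern ε R A B E) volume := fun a b e => (hD _ _ _ a b e).1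
  -- first variable
  have s0 : ∀ (A : ℝ × ℝ → ℂ) (g h : ℝ × ℝ → ℝ), MemLp A 3 volume → CC g → CC h →
      ‖∫ x, kern ε R A (cx g) (cx h) x‖ ≤ (2 * (C * (N3 (cx g) * N3 (cx h)))) * N3 A := by
    intro A g h hA hg hh
    refine step1 (fun A => ∫ x, kern ε R A (cx g) (cx h) x) (D := D * (N3 (cx g) * N3 (cx h)))
      (by have := N3_nonneg (cx g); have := N3_nonneg (cx h); positivity)
      (by have := N3_nonneg (cx g); have := N3_nonneg (cx h); positivity) ?_ ?_ ?_ ?_ A hA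
    · intro G H hG hH
      simp only [kern_add0]
      exact integral_add (i hG (memLp_cx hg) (memLp_cx hh)) (i hH (memLp_cx hg) (memLp_cx hh))
    · intro c G
      simp only [kern_smul0]
      exact integral_const_mul _ _
    · intro G hG
      refine ((hD G (cx g) (cx h) hG (memLp_cx hg) (memLp_cx hh)).2).trans (le_of_eq ?_)
      ring
    · intro G hG
      refine (hC G g h hG hg hh ε R hε hR).trans (le_of_eq ?_)
      change C * (N3 (cx G) * N3 (cx g) * N3 (cx h)) = _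
      ring
  -- second variable
  have s1 : ∀ (A B : ℝ × ℝ → ℂ) (h : ℝ × ℝ → ℝ), MemLp A 3 volume → MemLp B 3 volume → CC h →
      ‖∫ x, kern ε R A B (cx h) x‖ ≤ (2 * (2 * (C * (N3 A * N3 (cx h))))) * N3 B := by
    intro A B h hA hB hh
    refine step1 (fun B => ∫ x, kern ε R A B (cx h) x) (D := D * (N3 A * N3 (cx h)))
      (by have := N3_nonneg A; have := N3_nonneg (cx h); positivity)
      (by have := N3_nonneg A; have := N3_nonneg (cx h); positivity) ?_ ?_ ?_ ?_ B hB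
    · intro G H hG hH
      simp only [kern_add1]
      exact integral_add (i hA hG (memLp_cx hh)) (i hA hH (memLp_cx hh))
    · intro c G
      simp only [kern_smul1]
      exact integral_const_mul _ _
    · intro G hG
      refine ((hD A G (cx h) hA hG (memLp_cx hh)).2).trans (le_of_eq ?_)
      ring
    · intro G hG
      refine (s0 A G h hA hG hh).trans (le_of_eq ?_)
      ring
  -- third variable
  have s2 : ‖∫ x, kern ε R G₀ G₁ G₂ x‖ ≤ (2 * (2 * (2 * (C * (N3 G₀ * N3 G₁))))) * N3 G₂ := by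
    refine step1 (fun E => ∫ x, kern ε R G₀ G₁ E x) (D := D * (N3 G₀ * N3 G₁))
      (by have := N3_nonneg G₀; have := N3_nonneg G₁; positivity)
      (by have := N3_nonneg G₀; have := N3_nonneg G₁; positivity) ?_ ?_ ?_ ?_ G₂ m2
    · intro G H hG hH
      simp only [kern_add2]
      exact integral_add (i m0 m1 hG) (i m0 m1 hH)
    · intro c G
      simp only [kern_smul2]
      exact integral_const_mul _ _
    · intro G hG
      refine ((hD G₀ G₁ G m0 m1 hG).2).trans (le_of_eq ?_)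
      ring
    · intro G hG
      refine (s1 G₀ G₁ G m0 m1 hG).trans (le_of_eq ?_)
      ring
  refine s2.trans (le_of_eq ?_)
  change _ = 8 * C * (N3 G₀ * N3 G₁ * N3 G₂)
  ring

end Vale.Agent.P075.R.H908
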