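import Vale.Agent.P075.R.Pt
import Vale.Agent.P075.R.H908.Lev

set_option linter.unusedSectionVars false
set_option linter.unusedVariables false

namespace Vale.Agent.P075.R

open MeasureTheory Matrix Vale.Agent.P075 Vale.Agent.P075.R.H908

variable {F H G : ℝ × ℝ → ℝ}

theorem CC.flip (h : CC G) : CC (flip G) := by
  refine ⟨?_, ?_⟩
  · have := h.1
    unfold R.flip
    fun_prop
  · exact h.2.comp_homeomorph (Homeomorph.prodComm ℝ ℝ)

theorem int_sh1 (u : ℝ) (f : ℝ × ℝ → ℝ) : ∫ p : ℝ × ℝ, f (p.1 + u, p.2) = ∫ p, f p := by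
  rw [← integral_add_right_eq_self f ((u, 0) : ℝ × ℝ)]
  congr 1
  funext p
  congr 1
  ext <;> simp

theorem int_sh2 (u : ℝ) (f : ℝ × ℝ → ℝ) : ∫ p : ℝ × ℝ, f (p.1, p.2 + u) = ∫ p, f p := by
  rw [← integral_add_right_eq_self f ((0, u) : ℝ × ℝ)]
  congr 1
  funext p
  congr 1
  ext <;> simp

/-- reflection of the first coordinate on the plane -/
def plH (s : ℝ) : ℝ × ℝ ≃ₜ ℝ × ℝ where
  toFun p := (s - p.1 - p.2, p.2)
  invFun p := (s - p.1 - p.2, p.2)
  left_inv p := by ext <;> simp only <;> ring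
  right_inv p := by ext <;> simp only <;> ring
  continuous_toFun := by fun_prop
  continuous_invFun := by fun_prop

theorem mp_pl (s : ℝ) : MeasurePreserving (plH s) (volume : Measure (ℝ × ℝ)) volume := by
  have h1 : MeasurePreserving (Prod.swap : ℝ × ℝ → ℝ × ℝ) volume volume :=
    Measure.measurePreserving_swap
  have h2 : MeasurePreserving (fun q : ℝ × ℝ => (id q.1, (s - q.1) - q.2))
      ((volume : Measure ℝ).prod (volume : Measure ℝ)) (volume.prod volume) := by
    refine MeasurePreserving.skew_product (MeasurePreserving.id _)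
      (g := fun y x => (s - y) - x) (by fun_prop) ?_
    exact Filter.Eventually.of_forall fun y =>
      (Measure.measurePreserving_sub_left volume (s - y)).map_eq
  have h3 := h1.comp (h2.comp h1)
  have e : (plH s : ℝ × ℝ → ℝ × ℝ)
      = Prod.swap ∘ (fun q : ℝ × ℝ => (id q.1, (s - q.1) - q.2)) ∘ Prod.swap := by
    funext p
    change (s - p.1 - p.2, p.2) = _
    simp only [Function.comp_apply, Prod.swap, id]
    ext
    · simp only; ring
    · rfl
  rw [e]
  exact h3

theorem int_pl (s : ℝ) (f : ℝ × ℝ → ℝ) : ∫ p : ℝ × ℝ, f (s - p.1 - p.2, p.2) = ∫ p, f p :=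
  (mp_pl s).integral_comp (plH s).measurableEmbedding f

theorem int_flip (f : ℝ × ℝ → ℝ) : ∫ p : ℝ × ℝ, f (p.2, p.1) = ∫ p, f p :=
  (Measure.measurePreserving_swap (μ := (volume : Measure ℝ)) (ν := volume)).integral_comp
    MeasurableEquiv.prodComm.measurableEmbedding f

theorem ii_sh1 {f : ℝ × ℝ → ℝ} (hf : Integrable f) (u : ℝ) :
    Integrable fun p : ℝ × ℝ => f (p.1 + u, p.2) := by
  have := hf.comp_add_right ((u, 0) : ℝ × ℝ)
  refine this.congr (Filter.Eventually.of_forall fun p => ?_)
  simp only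
  congr 1
  ext <;> simp

theorem ii_sh2 {f : ℝ × ℝ → ℝ} (hf : Integrable f) (u : ℝ) :
    Integrable fun p : ℝ × ℝ => f (p.1, p.2 + u) := by
  have := hf.comp_add_right ((0, u) : ℝ × ℝ)
  refine this.congr (Filter.Eventually.of_forall fun p => ?_)
  simp only
  congr 1
  ext <;> simp

theorem ii_pl {f : ℝ × ℝ → ℝ} (hf : Integrable f) (s : ℝ) :
    Integrable fun p : ℝ × ℝ => f (s - p.1 - p.2, p.2) :=
  ((mp_pl s).integrable_comp_emb (plH s).measurableEmbedding).2 hf

/-! ### continuity and support of the Gram matrices -/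

theorem cont_XC (h : CC G) (η τ : ℝ) (a b : ℕ) : Continuous (fun p => XC η τ a b G p) := by
  have hG := h.1
  refine continuous_matrix fun i j => ?_
  simp only [XC_apply]
  fun_prop

theorem hcs_smp (h : CC G) (η : ℝ) (a b : ℕ) : HasCompactSupport (fun p => smp η a b G p) := by
  have hK : IsCompact (⋃ i : Ix a, ⋃ j : Ix b,
      (Homeomorph.addRight ((η * val a i, η * val b j) : ℝ × ℝ)) ⁻¹' tsupport G) := by
    refine isCompact_iUnion fun i => isCompact_iUnion fun j => ?_
    exact (Homeomorph.isCompact_preimage _).2 h.2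
  refine HasCompactSupport.intro hK ?_
  intro p hp
  funext i j
  simp only [Set.mem_iUnion, Set.mem_preimage, not_exists] at hp
  have h2 : G (p + (η * val a i, η * val b j)) = 0 :=
    image_eq_zero_of_notMem_tsupport (hp i j)
  exact h2

theorem hcs_XC (h : CC G) (η τ : ℝ) (a b : ℕ) :
    HasCompactSupport (fun p => XC η τ a b G p) := by
  refine (hcs_smp h η a b).mono ?_
  intro p hp
  simp only [Function.mem_support] at hp ⊢
  intro h0
  apply hp
  rw [XC, h0]
  simp

theorem sh_cont {n : Type*} {A : ℝ × ℝ → Matrix n n ℝ} (hA : Continuous A) (u : ℝ) :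
    Continuous (fun p : ℝ × ℝ => A (p.1 + u, p.2)) := by fun_prop

theorem sh_hcs {n : Type*} {A : ℝ × ℝ → Matrix n n ℝ} (hA : HasCompactSupport A) (u : ℝ) :
    HasCompactSupport (fun p : ℝ × ℝ => A (p.1 + u, p.2)) := by
  have := hA.comp_homeomorph (Homeomorph.addRight ((u, 0) : ℝ × ℝ))
  refine this.mono ?_
  intro p hp
  simp only [Function.mem_support, Function.comp_apply, Homeomorph.coe_addRight] at hp ⊢
  have e : p + (u, 0) = (p.1 + u, p.2) := by ext <;> simp
  rw [e]
  exact hp

/-- integrability from continuity and vanishing where two matrices vanish -/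
theorem ii_two {n m : Type*} {f : ℝ × ℝ → ℝ} {A : ℝ × ℝ → Matrix n n ℝ} {B : ℝ × ℝ → Matrix m m ℝ}
    (hf : Continuous f) (hA : HasCompactSupport A) (hB : HasCompactSupport B)
    (h : ∀ p, A p = 0 → B p = 0 → f p = 0) : Integrable f volume := by
  refine integrable_cs hf ?_
  refine HasCompactSupport.intro (hA.isCompact.union hB.isCompact) ?_
  intro p hp
  simp only [Set.mem_union, not_or] at hp
  exact h p (image_eq_zero_of_notMem_tsupport hp.1) (image_eq_zero_of_notMem_tsupport hp.2)

section zero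
variable {n : Type*} [Fintype n] [DecidableEq n]

theorem phi_zero' : phi (0 : Matrix n n ℝ) = 0 := by simp [phi, Vale.Agent.P075.res]

theorem GX_zero' : GX (0 : Matrix n n ℝ) = 0 := by simp [GX, ld]

theorem delt_zero' : delt (0 : Matrix n n ℝ) 0 = 0 := by
  rw [delt, add_zero, smul_zero, phi_zero']; simp

end zero

theorem ii_GX (h : CC G) (η τ : ℝ) (a b : ℕ) :
    Integrable fun p => GX (XC η τ a b G p) := by
  have hc := cont_XC h η τ a b
  refine integrable_cs ?_ (hcs_of_zero (hcs_XC h η τ a b) fun p hp => by rw [hp, GX_zero'])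
  unfold GX ld
  refine hc.matrix_trace.sub (Continuous.log ?_ fun p => (det_pos_one_add (XC_psd ..)).ne')
  fun_prop

theorem ii_dl (h : CC G) (η τ : ℝ) (a b : ℕ) : Integrable fun p => dl η τ a b G p := by
  have hc := cont_XC h η τ a b
  have hc' := sh_cont hc (η * 2 ^ a)
  refine ii_two ?_ (hcs_XC h η τ a b) (sh_hcs (hcs_XC h η τ a b) (η * 2 ^ a)) ?_
  · unfold dl delt
    refine Continuous.matrix_trace ?_
    refine Continuous.sub (cont_phi ?_ fun p => half_psd (XC_psd ..) (XC_psd ..)) ?_
    · exact (hc.add hc').const_smul (1 / 2 : ℝ)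
    · exact ((cont_phi hc fun p => XC_psd ..).add
        (cont_phi hc' fun p => XC_psd ..)).const_smul (1 / 2 : ℝ)
  · intro p h1 h2
    unfold dl
    rw [h1, h2, delt_zero', trace_zero]

theorem ii_cd (h : CC G) (η τ : ℝ) (a b : ℕ) : Integrable fun p => cd η τ a b G p := by
  have hc : Continuous (fun p => XS η τ a b G p) := cont_XC h η τ a (b + 1)
  have hs : HasCompactSupport (fun p => XS η τ a b G p) := hcs_XC h η τ a (b + 1)
  have hp := cont_phi hc fun p => XS_psd η τ a b G p
  refine integrable_cs ?_ (hcs_of_zero hs fun p hp => by unfold cd; rw [hp, phi_zero']; simp)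
  unfold cd
  exact (hp.matrix_mul ((continuous_const.matrix_mul hp).matrix_mul continuous_const)).matrix_trace

theorem ii_sd (h : CC G) (η τ : ℝ) (k : ℕ) (u : ℝ) : Integrable fun p => sd η τ k u G p := by
  have hc := cont_XC h η τ k k
  have hc' := sh_cont hc u
  refine ii_two ?_ (hcs_XC h η τ k k) (sh_hcs (hcs_XC h η τ k k) u) ?_
  · unfold sd
    have h1 := cont_phi hc fun p => XC_psd ..
    have h2 := cont_phi hc' fun p => XC_psd ..
    exact ((h2.sub h1).matrix_mul (h2.sub h1)).matrix_trace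
  · intro p h1 h2
    unfold sd
    rw [h1, h2]; simp

theorem pl_cont {n : Type*} {A : ℝ × ℝ → Matrix n n ℝ} (hA : Continuous A) (s : ℝ) :
    Continuous (fun p : ℝ × ℝ => A (s - p.1 - p.2, p.2)) := by fun_prop

theorem ii_mx (hF : CC F) (hH : CC H) (η τ : ℝ) (a b c : ℕ) (s : ℝ) :
    Integrable fun p => mx η τ a b c F H s p := by
  have h1 := cont_phi (cont_XC hF η τ a b) fun p => XC_psd ..
  have h2 := cont_phi (pl_cont (cont_XC hH.flip η τ c b) s) fun p => XC_psd ..
  refine integrable_cs ?_ (hcs_of_zero (hcs_XC hF η τ a b) fun p hp => by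
    unfold mx; rw [hp, phi_zero']; simp)
  unfold mx
  exact (h1.matrix_mul h2).matrix_trace

theorem ii_mn (hF : CC F) (hH : CC H) (η τ : ℝ) (k : ℕ) (s : ℝ) :
    Integrable fun p => mn η τ k F H s p := by
  have hs : HasCompactSupport (fun p => XS η τ (k + 1) k F p) := hcs_XC hF η τ (k + 1) (k + 1)
  exact integrable_cs (cont_mn η τ k hF.1 hH.1 s) (hcs_of_zero hs fun p hp => by
    unfold mn; rw [hp, phi_zero']; simp)

theorem ii_hh (h : CC G) (τ : ℝ) : Integrable fun p => hh (G p ^ 2 / τ ^ 2) := hh_int h τ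

end Vale.Agent.P075.R
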